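import Mathlib
import Vale.Agent.P150W51.Disc
import Vale.Agent.P150.H185.MainAT
import Vale.Agent.P150.H185.CritAll
import Vale.Agent.P150.H704.Near
import Vale.Agent.P150.H704.CritFull
import Vale.Agent.P150.H281.InstL

open Filter Topology

namespace Vale.Agent.Results.P150.AAClocks

open Vale.Agent.P150 Vale.Agent.P150W

/-- The zero-field SK heat-bath dynamics driven by independent rate-one Poisson clocks; `mix` is its
mixing time and `gapL` the spectral gap of `-L`, `L = ∑ i (Q_i - I)`, on `L²(μ)`.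
(0) For all `n`, `β` and disorders: the path exists and is unique almost surely and its kernel is
`exp (t L)`; for `n ≥ 1`, `Q_i` is the heat-bath average, `L` is self-adjoint, its kernel consists
of the constants, the gap is the least nonzero point of the spectrum of `-L`; total variation,
mixing time and gap are those of the matrix semigroup and of the Rayleigh quotient; if the discrete
chain is mixed after `k` attempts, then `n t_mix ≤ 4 k + 6`. Then, w.h.p. over the disorder: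
(1) for every fixed `β ≥ 0` the mixing time is `O(log n)`, the gap is bounded below, and the
discrete chain mixes in `O(n log n)` attempts, each exactly when `β < 1`; (2) for `β < 1` the gap has
the order `1` and the mixing time the order `log n`; (3) at `β = 1` the mixing time and the inverse
gap are at least `n ^ (2/3)` up to logarithms, and subexponential; (4) for `β > 1` they are at least
`exp (n ^ (1/6) / (log n) ^ C)` and at most exponential. -/
theorem result :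
    (∀ (n : ℕ) (β : ℝ) (g : Pairs n → ℝ),
      Dynamics (skJ β g) (fun _ => 0) ∧
      (∀ t, 0 ≤ t → ∀ x, tv (skJ β g) (fun _ => 0) t x = tvDist (skJ β g) (fun _ => 0) t x) ∧
      mix (skJ β g) (fun _ => 0) = tmix (skJ β g) (fun _ => 0) ∧
      (0 < n → Spectral (skJ β g) (fun _ => 0) ∧
        gapL (skJ β g) (fun _ => 0) = gap (skJ β g) (fun _ => 0) ∧
        ∀ k : ℕ, (∀ x, tvStep (skJ β g) (fun _ => 0) k x ≤ 1 / 4) →
          n * mix (skJ β g) (fun _ => 0) ≤ 4 * k + 6)) ∧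
    (∀ β : ℝ, 0 ≤ β →
      ((∃ C : ℝ, WHP (fun n => {g | mix (skJ β g) (fun _ => 0) ≤ C * Real.log n})) ↔ β < 1) ∧
      ((∃ c : ℝ, 0 < c ∧ WHP (fun _ => {g | c ≤ gapL (skJ β g) (fun _ => 0)})) ↔ β < 1) ∧
      ((∃ C : ℝ, WHP (fun n => {g | ∀ k : ℕ, C * n * Real.log n ≤ k →
        ∀ x, tvStep (skJ β g) (fun _ => 0) k x ≤ 1 / 4})) ↔ β < 1)) ∧
    (∀ β : ℝ, 0 ≤ β → β < 1 → ∃ c C : ℝ, 0 < c ∧ 0 < C ∧ WHP (fun n => {g |
      c ≤ gapL (skJ β g) (fun _ => 0) ∧ gapL (skJ β g) (fun _ => 0) ≤ 1 ∧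
      c * Real.log n ≤ mix (skJ β g) (fun _ => 0) ∧
      mix (skJ β g) (fun _ => 0) ≤ C * Real.log n ∧
      ∀ t, C * Real.log n ≤ t → ∀ x, tv (skJ β g) (fun _ => 0) t x ≤ 1 / 4})) ∧
    (∃ C : ℝ, 0 < C ∧ ∀ ε : ℝ, 0 < ε → WHP (fun n => {g |
      Real.exp (-(ε * n)) ≤ gapL (skJ 1 g) (fun _ => 0) ∧
      gapL (skJ 1 g) (fun _ => 0) ≤ C * Real.log n ^ 4 * (n : ℝ) ^ (-(2 / 3 : ℝ)) ∧
      Real.log 2 / (C * Real.log n ^ 4) * (n : ℝ) ^ (2 / 3 : ℝ) ≤ mix (skJ 1 g) (fun _ => 0) ∧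
      mix (skJ 1 g) (fun _ => 0) ≤ Real.exp (ε * n)})) ∧
    (∀ β : ℝ, 1 < β → ∃ C : ℝ, 0 < C ∧ ∀ ε : ℝ, 0 < ε → WHP (fun n => {g |
      Real.exp (-((2 * √(Real.log 2) * (β - 1) + ε) * n)) ≤ gapL (skJ β g) (fun _ => 0) ∧
      gapL (skJ β g) (fun _ => 0) ≤ Real.exp (-((n : ℝ) ^ (1 / 6 : ℝ) / Real.log n ^ C)) ∧
      Real.log 2 * Real.exp ((n : ℝ) ^ (1 / 6 : ℝ) / Real.log n ^ C) ≤
        mix (skJ β g) (fun _ => 0) ∧
      mix (skJ β g) (fun _ => 0) ≤ Real.exp ((2 * √(Real.log 2) * (β - 1) + ε) * n)})) := by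
  have hg : ∀ {n : ℕ} (β : ℝ) (g : Pairs n → ℝ), 0 < n →
      gapL (skJ β g) (fun _ => 0) = gap (skJ β g) (fun _ => 0) :=
    fun β g hn => gapL_eq (Asm.skJ_symm β g) hn
  have hn := eventually_gt_atTop 0
  refine ⟨fun n β g => ⟨dynamics _ _, fun t ht x => tv_eq ht x, mix_eq,
    fun hn => ⟨spectral (Asm.skJ_symm β g) hn, hg β g hn, fun _ => mix_le (Asm.skJ_symm β g) hn⟩⟩,
    fun β hβ => ⟨?_, ?_, fun ⟨C, h⟩ => ?_, fun h1 => ?_⟩,
    fun β h0 h1 => ?_, ?_, fun β hβ => ?_⟩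
  · simp only [mix_eq]
    exact H185.Crit.tmix_iff β hβ
  · rw [← H185.Crit.gap_iff β hβ]
    refine exists_congr fun c => and_congr_right fun _ => ⟨fun h => ?_, fun h => ?_⟩
    · exact MainThm.whp_mono h (hn.mono fun n hn g h => (hg β g hn).subst (motive := (c ≤ ·)) h)
    · exact MainThm.whp_mono h
        (hn.mono fun n hn g h => (hg β g hn).symm.subst (motive := (c ≤ ·)) h)
  · refine (H185.Crit.tmix_iff β hβ).1 ⟨4 * |C| + 10, MainThm.whp_mono h ?_⟩
    filter_upwards [eventually_ge_atTop 3] with n hn g h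
    have h3 : (3 : ℝ) ≤ n := by exact_mod_cast hn
    have hL : 1 ≤ Real.log n := by
      rw [Real.le_log_iff_exp_le (by linarith)]
      linarith [Real.exp_one_lt_three]
    have h4 : 0 ≤ |C| * n * Real.log n := by positivity
    have h5 := mix_le (Asm.skJ_symm β g) (by omega) (h ⌈|C| * n * Real.log n⌉₊
      (le_trans (by gcongr; exact le_abs_self C) (Nat.le_ceil _)))
    have h6 := Nat.ceil_lt_add_one h4
    rw [mix_eq] at h5
    rw [Set.mem_ofPred_eq]
    refine le_of_mul_le_mul_left (a := (n : ℝ)) ?_ (by linarith)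
    nlinarith
  · obtain ⟨c, C, -, hC, h⟩ := H185.high_zero_at β hβ h1
    obtain ⟨C2, -, h2⟩ := H185.sk_mlsi β hβ h1
    have h3 : WHP (fun n => {g | ∀ x, -Real.log (gibbs (skJ β g) (fun _ => 0) x) ≤ 4 * n}) :=
      h2.mono fun _ h => h.2
    refine ⟨2 * C, MainThm.whp_mono (MainThm.whp_inter h h3) ?_⟩
    filter_upwards [eventually_ge_atTop 32] with n hn g h k hk x
    exact tvStep_le (Asm.skJ_symm β g) hn hC h.1.2.2.2.2.2.1 h.2 hk x
  · obtain ⟨c, C, hc, hC, h⟩ := H185.high_zero_at β h0 h1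
    refine ⟨c, C, hc, hC, MainThm.whp_mono h (hn.mono fun n hn g h => ?_)⟩
    obtain ⟨a1, a2, a3, a4, a5, -⟩ := h
    rw [Set.mem_ofPred_eq, hg β g hn, mix_eq]
    refine ⟨a1, a2, a3, a4, fun t ht x => ?_⟩
    rw [tv_eq ((mul_nonneg hC.le (Real.log_natCast_nonneg n)).trans ht)]
    exact a5 t ht x
  · obtain ⟨C, hC, h⟩ := H704.crit_full
    refine ⟨C, hC, fun ε hε => MainThm.whp_mono (MainThm.whp_inter h (H704.near hε))
      (hn.mono fun n hn g h => ?_)⟩
    obtain ⟨⟨a1, a2, -⟩, a3⟩ := h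
    have a4 := a3 1 zero_le_one
    rw [sub_self, max_self, mul_zero, zero_add] at a4
    rw [Set.mem_ofPred_eq, hg 1 g hn, mix_eq]
    exact ⟨a4.1, a1, a2, a4.2⟩
  · have hd : 0 < β := by linarith
    obtain ⟨C, hC, h⟩ := H281.slowL hd (H281.momL hβ)
    refine ⟨C, hC, fun ε hε => MainThm.whp_mono (MainThm.whp_inter h
      (H704.near (ε := ε / β) (by positivity))) (hn.mono fun n hn g h => ?_)⟩
    obtain ⟨⟨a1, a2, -⟩, a3⟩ := h
    have a4 := a3 β hd.le
    have e : (2 * √(Real.log 2) + ε / β) * (β - 1) + ε / β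
        = 2 * √(Real.log 2) * (β - 1) + ε := by
      field_simp
      ring
    rw [max_eq_left (by linarith), e] at a4
    rw [Set.mem_ofPred_eq, hg β g hn, mix_eq]
    exact ⟨a4.1, a1, a2, a4.2⟩

end Vale.Agent.Results.P150.AAClocks
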