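import Mathlib
import Vale.Agent.P150W51.Spec
import Vale.Agent.P150.H185.MainAT
import Vale.Agent.P150.H185.CritAll
import Vale.Agent.P150.H185.CritPowMain
import Vale.Agent.P150.H704.Near

open Filter Topology

namespace Vale.Agent.Results.P150.AClocks

open Vale.Agent.P150 Vale.Agent.P150W

/-- The zero-field SK heat-bath dynamics driven by independent rate-one Poisson clocks; `mix` is its
mixing time and `gapL` the spectral gap of `-L`, `L = ∑ i (Q_i - I)`, on `L²(μ)`.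
(0) For all `n`, `β` and disorders: the path exists and is unique almost surely and its kernel is
`exp (t L)`; for `n ≥ 1`, `Q_i` is the heat-bath average, `L` is self-adjoint, its kernel consists
of the constants, the gap is the least nonzero point of the spectrum of `-L`; total variation,
mixing time and gap are those of the matrix semigroup and of the Rayleigh quotient. Then, w.h.p.
over the disorder: (1) for every fixed `β ≥ 0` the mixing time is `O(log n)` exactly when `β < 1`,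
and the gap is bounded below exactly when `β < 1`; (2) for `β < 1` the gap has the order `1` and the
mixing time the order `log n`; (3) bounds at `β = 1`; (4) bounds for `β > 1`. -/
theorem result :
    (∀ (n : ℕ) (β : ℝ) (g : Pairs n → ℝ),
      Dynamics (skJ β g) (fun _ => 0) ∧
      (∀ t, 0 ≤ t → ∀ x, tv (skJ β g) (fun _ => 0) t x = tvDist (skJ β g) (fun _ => 0) t x) ∧
      mix (skJ β g) (fun _ => 0) = tmix (skJ β g) (fun _ => 0) ∧
      (0 < n → Spectral (skJ β g) (fun _ => 0) ∧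
        gapL (skJ β g) (fun _ => 0) = gap (skJ β g) (fun _ => 0))) ∧
    (∀ β : ℝ, 0 ≤ β →
      ((∃ C : ℝ, WHP (fun n => {g | mix (skJ β g) (fun _ => 0) ≤ C * Real.log n})) ↔ β < 1) ∧
      ((∃ c : ℝ, 0 < c ∧ WHP (fun _ => {g | c ≤ gapL (skJ β g) (fun _ => 0)})) ↔ β < 1)) ∧
    (∀ β : ℝ, 0 ≤ β → β < 1 → ∃ c C : ℝ, 0 < c ∧ 0 < C ∧ WHP (fun n => {g |
      c ≤ gapL (skJ β g) (fun _ => 0) ∧ gapL (skJ β g) (fun _ => 0) ≤ 1 ∧
      c * Real.log n ≤ mix (skJ β g) (fun _ => 0) ∧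
      mix (skJ β g) (fun _ => 0) ≤ C * Real.log n ∧
      ∀ t, C * Real.log n ≤ t → ∀ x, tv (skJ β g) (fun _ => 0) t x ≤ 1 / 4})) ∧
    (∀ κ ε : ℝ, κ < 1 / 2 → 0 < ε → WHP (fun n => {g |
      Real.exp (-(ε * n)) ≤ gapL (skJ 1 g) (fun _ => 0) ∧
      gapL (skJ 1 g) (fun _ => 0) ≤ (n : ℝ) ^ (-κ) ∧
      Real.log 2 * (n : ℝ) ^ κ ≤ mix (skJ 1 g) (fun _ => 0) ∧
      mix (skJ 1 g) (fun _ => 0) ≤ Real.exp (ε * n)})) ∧
    (∀ β ε : ℝ, 1 < β → 0 < ε → ∀ a : ℕ → ℝ, Tendsto a atTop atTop → WHP (fun n => {g |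
      Real.exp (-((2 * √(Real.log 2) * (β - 1) + ε) * n)) ≤ gapL (skJ β g) (fun _ => 0) ∧
      gapL (skJ β g) (fun _ => 0) ≤ a n / n ∧
      Real.log 2 * (n / a n) ≤ mix (skJ β g) (fun _ => 0) ∧
      mix (skJ β g) (fun _ => 0) ≤ Real.exp ((2 * √(Real.log 2) * (β - 1) + ε) * n)})) := by
  have hg : ∀ {n : ℕ} (β : ℝ) (g : Pairs n → ℝ), 0 < n →
      gapL (skJ β g) (fun _ => 0) = gap (skJ β g) (fun _ => 0) :=
    fun β g hn => gapL_eq (Asm.skJ_symm β g) hn
  have hn := eventually_gt_atTop 0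
  refine ⟨fun n β g => ⟨dynamics _ _, fun t ht x => tv_eq ht x, mix_eq,
    fun hn => ⟨spectral (Asm.skJ_symm β g) hn, hg β g hn⟩⟩, fun β hβ => ⟨?_, ?_⟩,
    fun β h0 h1 => ?_, fun κ ε hκ hε => ?_, fun β ε hβ hε a ha => ?_⟩
  · simp only [mix_eq]
    exact H185.Crit.tmix_iff β hβ
  · rw [← H185.Crit.gap_iff β hβ]
    refine exists_congr fun c => and_congr_right fun _ => ⟨fun h => ?_, fun h => ?_⟩
    · exact MainThm.whp_mono h (hn.mono fun n hn g h => (hg β g hn).subst (motive := (c ≤ ·)) h)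
    · exact MainThm.whp_mono h
        (hn.mono fun n hn g h => (hg β g hn).symm.subst (motive := (c ≤ ·)) h)
  · obtain ⟨c, C, hc, hC, h⟩ := H185.high_zero_at β h0 h1
    refine ⟨c, C, hc, hC, MainThm.whp_mono h (hn.mono fun n hn g h => ?_)⟩
    obtain ⟨a1, a2, a3, a4, a5, -⟩ := h
    rw [Set.mem_ofPred_eq, hg β g hn, mix_eq]
    refine ⟨a1, a2, a3, a4, fun t ht x => ?_⟩
    rw [tv_eq ((mul_nonneg hC.le (Real.log_natCast_nonneg n)).trans ht)]
    exact a5 t ht x
  · refine MainThm.whp_mono (MainThm.whp_inter (H185.Crit.crit_pow κ hκ) (H704.near hε))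
      (hn.mono fun n hn g h => ?_)
    obtain ⟨⟨a1, a2, -⟩, a3⟩ := h
    have a4 := a3 1 zero_le_one
    rw [sub_self, max_self, mul_zero, zero_add] at a4
    rw [Set.mem_ofPred_eq, hg 1 g hn, mix_eq]
    exact ⟨a4.1, a1, a2, a4.2⟩
  · have hd : 0 < β := by linarith
    refine MainThm.whp_mono (MainThm.whp_inter (H185.low β hβ a ha)
      (H704.near (ε := ε / β) (by positivity))) (hn.mono fun n hn g h => ?_)
    obtain ⟨⟨a1, a2, -⟩, a3⟩ := h
    have a4 := a3 β hd.le
    have e : (2 * √(Real.log 2) + ε / β) * (β - 1) + ε / β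
        = 2 * √(Real.log 2) * (β - 1) + ε := by
      field_simp
      ring
    rw [max_eq_left (by linarith), e] at a4
    rw [Set.mem_ofPred_eq, hg β g hn, mix_eq]
    exact ⟨a4.1, a1, a2, a4.2⟩

end Vale.Agent.Results.P150.AClocks
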